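import Mathlib

namespace Vale.Agent.P042

open Finset

theorem count_le (f : ℕ → ℤ) (k B N M : ℕ) (hk : 1 ≤ k)
    (hf : ∀ n : ℕ, B < n → |f n| ≤ N → n ^ k ≤ 2 * N) (hM : 2 * N < (M + 1) ^ k) :
    ∃ H : Finset ℕ, H.card ≤ B + M ∧
      ∀ v : ℕ, v ≤ N → ∀ n : ℕ, 1 ≤ n → (f n = v ∨ f n = -(v : ℤ)) → v ∈ H := by
  refine ⟨(Icc 1 (max B M)).image (fun n => (f n).natAbs), ?_, ?_⟩
  · calc ((Icc 1 (max B M)).image (fun n => (f n).natAbs)).card
        ≤ (Icc 1 (max B M)).card := Finset.card_image_le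
      _ = max B M := by simp
      _ ≤ B + M := by omega
  · intro v hv n hn hfn
    have habs : (f n).natAbs = v := by
      rcases hfn with h | h
      · rw [h]
        simp
      · rw [h]
        simp
    rw [Finset.mem_image]
    refine ⟨n, ?_, habs⟩
    rw [Finset.mem_Icc]
    refine ⟨hn, ?_⟩
    by_cases hB : n ≤ B
    · exact le_trans hB (le_max_left _ _)
    · push Not at hB
      have h1 : |f n| ≤ (N : ℤ) := by
        rw [Int.abs_eq_natAbs, habs]
        exact_mod_cast hv
      have h2 := hf n hB h1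
      have h3 : n ^ k < (M + 1) ^ k := lt_of_le_of_lt h2 hM
      have h4 : n < M + 1 := lt_of_pow_lt_pow_left₀ k (by omega) h3
      exact le_trans (by omega) (le_max_right _ _)

end Vale.Agent.P042
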