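import Mathlib

namespace Vale.Agent.P042

open Finset

theorem greedy_aux (H : Finset ℕ) : ∀ (n : ℕ) (S : Finset ℕ), S.card = n →
    ∃ A ⊆ S, (∀ a ∈ A, ∀ b ∈ A, a < b → b - a ∉ H) ∧ S.card ≤ A.card * (1 + H.card) := by
  intro n
  induction n using Nat.strong_induction_on with
  | _ n ih =>
    intro S hS
    rcases S.eq_empty_or_nonempty with rfl | hne
    · exact ⟨∅, Subset.refl _, by simp, by simp⟩
    · have hm : S.min' hne ∈ S := S.min'_mem hne
      set m := S.min' hne with hmdef
      set K : Finset ℕ := insert m (H.image (fun v => m + v)) with hK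
      have hmK : m ∈ K := mem_insert_self _ _
      have hlt : (S \ K).card < n := by
        rw [← hS]
        apply card_lt_card
        refine ⟨sdiff_subset, fun hsub => ?_⟩
        have := hsub hm
        exact (mem_sdiff.1 this).2 hmK
      obtain ⟨A', hA', hfree, hcard⟩ := ih _ hlt (S \ K) rfl
      have hmA : m ∉ A' := fun h => (mem_sdiff.1 (hA' h)).2 hmK
      have hgt : ∀ b ∈ A', m < b ∧ b - m ∉ H := by
        intro b hb
        have hb' := mem_sdiff.1 (hA' hb)
        have hle : m ≤ b := S.min'_le b hb'.1
        have hne' : b ≠ m := fun h => hmA (h ▸ hb)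
        refine ⟨lt_of_le_of_ne hle (Ne.symm hne'), fun hH => hb'.2 ?_⟩
        apply mem_insert_of_mem
        exact mem_image.2 ⟨b - m, hH, by omega⟩
      refine ⟨insert m A', ?_, ?_, ?_⟩
      · intro x hx
        rcases mem_insert.1 hx with rfl | hx
        · exact hm
        · exact (mem_sdiff.1 (hA' hx)).1
      · intro a ha b hb hab
        rcases mem_insert.1 ha with rfl | ha
        · rcases mem_insert.1 hb with hb | hb
          · omega
          · exact (hgt b hb).2
        · rcases mem_insert.1 hb with hb | hb
          · have := (hgt a ha).1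
            omega
          · exact hfree a ha b hb hab
      · rw [card_insert_of_notMem hmA]
        have h1 : S.card ≤ (S \ K).card + K.card := card_le_card_sdiff_add_card
        have h2 : K.card ≤ 1 + H.card := by
          have h4 : K.card ≤ (H.image (fun v => m + v)).card + 1 :=
            card_insert_le m (H.image (fun v => m + v))
          have h3 := card_image_le (s := H) (f := fun v => m + v)
          omega
        calc S.card ≤ (S \ K).card + K.card := h1
          _ ≤ A'.card * (1 + H.card) + (1 + H.card) := add_le_add hcard h2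
          _ = (A'.card + 1) * (1 + H.card) := by ring

/-- PART G -/
theorem greedy (H : Finset ℕ) (S : Finset ℕ) :
    ∃ A ⊆ S, (∀ a ∈ A, ∀ b ∈ A, a < b → b - a ∉ H) ∧ S.card ≤ A.card * (1 + H.card) :=
  greedy_aux H S.card S rfl

end Vale.Agent.P042
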