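import Mathlib

namespace Vale.Agent.P042

open Finset

theorem large_values (h : Polynomial ℤ) (hk1 : 1 ≤ h.natDegree) (hlead : 0 < h.leadingCoeff) :
    ∃ B : ℕ, ∀ N n : ℕ, B < n → |h.eval (n : ℤ)| ≤ N → n ^ h.natDegree ≤ 2 * N := by
  obtain ⟨j, hj⟩ : ∃ j, h.natDegree = j + 1 := ⟨h.natDegree - 1, by omega⟩
  obtain ⟨C, hC⟩ : ∃ C : ℤ, C = ∑ i ∈ range (j + 1), |h.coeff i| := ⟨_, rfl⟩
  have hC0 : 0 ≤ C := by
    rw [hC]
    exact Finset.sum_nonneg (fun i _ => abs_nonneg _)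
  refine ⟨(2 * C).toNat, ?_⟩
  intro N n hn hN
  have hn' : 2 * C < (n : ℤ) := by omega
  have hn1 : (1 : ℤ) ≤ n := by linarith
  have hev : h.eval (n : ℤ)
      = ∑ i ∈ range (j + 1), h.coeff i * (n : ℤ) ^ i + h.leadingCoeff * (n : ℤ) ^ (j + 1) := by
    rw [Polynomial.eval_eq_sum_range, hj, Finset.sum_range_succ, Polynomial.leadingCoeff, hj]
  have hlow : -(C * (n : ℤ) ^ j) ≤ ∑ i ∈ range (j + 1), h.coeff i * (n : ℤ) ^ i := by
    rw [hC, Finset.sum_mul, ← Finset.sum_neg_distrib]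
    apply Finset.sum_le_sum
    intro i hi
    have hi' : i ≤ j := by
      have := Finset.mem_range.1 hi
      omega
    have hp : (n : ℤ) ^ i ≤ (n : ℤ) ^ j := pow_le_pow_right₀ hn1 hi'
    have hp0 : 0 < (n : ℤ) ^ i := by positivity
    have h1 : -|h.coeff i| ≤ h.coeff i := neg_abs_le _
    have h2 : |h.coeff i| * (n : ℤ) ^ i ≤ |h.coeff i| * (n : ℤ) ^ j :=
      mul_le_mul_of_nonneg_left hp (abs_nonneg _)
    have h3 : -|h.coeff i| * (n : ℤ) ^ i ≤ h.coeff i * (n : ℤ) ^ i :=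
      mul_le_mul_of_nonneg_right h1 hp0.le
    linarith
  have hP : 0 ≤ (n : ℤ) ^ j := by positivity
  have hk' : (n : ℤ) ^ (j + 1) = n * (n : ℤ) ^ j := by rw [pow_succ]; ring
  have hl : (n : ℤ) ^ (j + 1) ≤ h.leadingCoeff * (n : ℤ) ^ (j + 1) := by
    have h0 : 0 ≤ (n : ℤ) ^ (j + 1) := by positivity
    nlinarith
  have h4 : 2 * C * (n : ℤ) ^ j ≤ n * (n : ℤ) ^ j := mul_le_mul_of_nonneg_right hn'.le hP
  have h5 : (n : ℤ) ^ (j + 1) ≤ 2 * h.eval (n : ℤ) := by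
    rw [hev]
    linarith
  have h6 : (n : ℤ) ^ (j + 1) ≤ 2 * N := by
    have := le_abs_self (h.eval (n : ℤ))
    linarith
  rw [hj]
  exact_mod_cast h6

end Vale.Agent.P042
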